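import Mathlib.Analysis.InnerProductSpace.PiL2
import Mathlib.Analysis.InnerProductSpace.Projection.Basic
import Mathlib.MeasureTheory.Measure.Haar.InnerProductSpace

/-! Cylinder coverings of convex bodies in a Euclidean space `V`, as in the problem text; in the
theorem `V` has dimension three. -/

open MeasureTheory

namespace Vale.Agent.N243

variable {V : Type} [NormedAddCommGroup V] [InnerProductSpace ℝ V]

/-- A convex body: a compact convex set with nonempty interior. -/
def IsBody (K : Set V) : Prop := IsCompact K ∧ Convex ℝ K ∧ (interior K).Nonempty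

/-- Subsets of the plane `u^⊥`. -/
abbrev Base (u : V) : Type := Set (ℝ ∙ u)ᗮ

/-- `T` is the tetrahedron with vertices `v 0, v 1, v 2, v 3`. -/
def IsTet (v : Fin 4 → V) (T : Set V) : Prop :=
  AffineIndependent ℝ v ∧ T = convexHull ℝ (Set.range v)

/-- Every `u i` is parallel to an edge `v j - v k`. -/
def AlongEdges (v : Fin 4 → V) {m : ℕ} (u : Fin m → V) : Prop :=
  ∀ i, ∃ j k, u i ∈ ℝ ∙ (v j - v k)

variable [FiniteDimensional ℝ V] [MeasurableSpace V] [BorelSpace V]

/-- The planar area `|B|` of a subset `B` of the plane `u^⊥`. -/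
noncomputable def area {u : V} (B : Base u) : ℝ := (volume B).toReal

/-- The area of the orthogonal projection of `K` onto the plane `u^⊥`. -/
noncomputable def shadow (K : Set V) (u : V) : ℝ :=
  area ((ℝ ∙ u)ᗮ.orthogonalProjectionOnto '' K)

/-- The smallest area of an orthogonal projection of `K` onto a plane. -/
noncomputable def Amin (K : Set V) : ℝ := sInf (shadow K '' {u | ‖u‖ = 1})

/-- The cylinders `B i + ℝ (u i)`, with unit vectors `u i` and Lebesgue measurable bases
`B i ⊆ (u i)^⊥` of finite area, cover `K`. -/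
def Covers (K : Set V) {m : ℕ} (u : Fin m → V) (B : ∀ i, Base (u i)) : Prop :=
  (∀ i, ‖u i‖ = 1 ∧ NullMeasurableSet (B i) volume ∧ volume (B i) ≠ ⊤) ∧
    ∀ x ∈ K, ∃ i, ∃ b ∈ B i, ∃ t : ℝ, x = (b : V) + t • u i

end Vale.Agent.N243
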