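import Vale.Agent.N243.Main

/-! Transfer along linear isometries: the statements in any Euclidean space of dimension three. -/

set_option linter.all false

open MeasureTheory Set

namespace Vale.Agent.N243

variable {V W : Type} [NormedAddCommGroup V] [InnerProductSpace ℝ V]
  [NormedAddCommGroup W] [InnerProductSpace ℝ W]

theorem mem_perp (e : V ≃ₗᵢ[ℝ] W) {u x : V} : e x ∈ (ℝ ∙ e u)ᗮ ↔ x ∈ (ℝ ∙ u)ᗮ := by
  rw [Submodule.mem_orthogonal_singleton_iff_inner_right,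
    Submodule.mem_orthogonal_singleton_iff_inner_right, e.inner_map_map]

/-- The isometry between the planes `u^⊥` and `(e u)^⊥`. -/
noncomputable def pe (e : V ≃ₗᵢ[ℝ] W) (u : V) : (ℝ ∙ u)ᗮ ≃ₗᵢ[ℝ] (ℝ ∙ e u)ᗮ where
  toFun x := ⟨e x, (mem_perp e).2 x.2⟩
  invFun y := ⟨e.symm y, (mem_perp e).1 (by rw [e.apply_symm_apply]; exact y.2)⟩
  map_add' x y := Subtype.ext (map_add e (x : V) y)
  map_smul' r x := Subtype.ext (map_smul e r (x : V))
  left_inv x := Subtype.ext (e.symm_apply_apply _)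
  right_inv y := Subtype.ext (e.apply_symm_apply _)
  norm_map' x := e.norm_map x

theorem IsBody.map (e : V ≃ₗᵢ[ℝ] W) {K : Set V} (h : IsBody K) : IsBody (e '' K) :=
  ⟨h.1.image e.continuous, h.2.1.linear_image e.toLinearEquiv.toLinearMap,
    (h.2.2.image e).mono (e.toHomeomorph.isOpenMap.image_interior_subset K)⟩

theorem IsTet.map (e : V ≃ₗᵢ[ℝ] W) {v : Fin 4 → V} {T : Set V} (h : IsTet v T) :
    IsTet (fun i => e (v i)) (e '' T) := by
  refine ⟨h.1.map' e.toLinearEquiv.toLinearMap.toAffineMap e.injective, ?_⟩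
  rw [h.2]
  refine (e.toLinearEquiv.toLinearMap.image_convexHull (range v)).trans ?_
  rw [← range_comp]
  rfl

theorem AlongEdges.map (e : V ≃ₗᵢ[ℝ] W) {v : Fin 4 → V} {m : ℕ} {u : Fin m → V}
    (h : AlongEdges v u) : AlongEdges (fun i => e (v i)) fun i => e (u i) := by
  intro i
  obtain ⟨j, k, hjk⟩ := h i
  obtain ⟨a, ha⟩ := Submodule.mem_span_singleton.1 hjk
  refine ⟨j, k, Submodule.mem_span_singleton.2 ⟨a, ?_⟩⟩
  change a • (e (v j) - e (v k)) = e (u i)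
  rw [← ha, map_smul, map_sub]

variable [FiniteDimensional ℝ V] [MeasurableSpace V] [BorelSpace V]
  [FiniteDimensional ℝ W] [MeasurableSpace W] [BorelSpace W]

theorem pe_image (e : V ≃ₗᵢ[ℝ] W) {u : V} (B : Base u) :
    pe e u '' B = (pe e u).symm ⁻¹' B := (pe e u).toEquiv.image_eq_preimage_symm B

theorem vol_pe (e : V ≃ₗᵢ[ℝ] W) {u : V} (B : Base u) : volume (pe e u '' B) = volume B := by
  rw [pe_image]
  exact MeasurePreserving.measure_preimage_equiv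
    (f := (pe e u).symm.toHomeomorph.toMeasurableEquiv) (pe e u).symm.measurePreserving B

theorem pe_proj (e : V ≃ₗᵢ[ℝ] W) (u x : V) :
    pe e u ((ℝ ∙ u)ᗮ.orthogonalProjectionOnto x) =
      (ℝ ∙ e u)ᗮ.orthogonalProjectionOnto (e x) := by
  refine Subtype.ext (Submodule.eq_starProjection_of_mem_orthogonal (Subtype.prop _) ?_).symm
  rw [Submodule.orthogonal_orthogonal]
  have h1 := (ℝ ∙ u)ᗮ.sub_starProjection_mem_orthogonal x
  rw [Submodule.orthogonal_orthogonal] at h1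
  obtain ⟨a, ha⟩ := Submodule.mem_span_singleton.1 h1
  refine Submodule.mem_span_singleton.2 ⟨a, ?_⟩
  rw [← map_smul, ha, map_sub]
  rfl

theorem shadow_map (e : V ≃ₗᵢ[ℝ] W) (K : Set V) (u : V) :
    shadow (e '' K) (e u) = shadow K u := by
  unfold shadow area
  rw [← vol_pe e, image_image, image_image]
  simp only [pe_proj]

theorem shadows_map (e : V ≃ₗᵢ[ℝ] W) (K : Set V) :
    shadow (e '' K) '' {u | ‖u‖ = 1} = shadow K '' {u | ‖u‖ = 1} := by
  ext t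
  constructor
  · rintro ⟨u, hu, rfl⟩
    exact ⟨e.symm u, (e.symm.norm_map u).trans hu, by rw [← shadow_map e, e.apply_symm_apply]⟩
  · rintro ⟨u, hu, rfl⟩
    exact ⟨e u, (e.norm_map u).trans hu, shadow_map e K u⟩

theorem Amin_map (e : V ≃ₗᵢ[ℝ] W) (K : Set V) : Amin (e '' K) = Amin K := by
  unfold Amin
  rw [shadows_map]

theorem Covers.map (e : V ≃ₗᵢ[ℝ] W) {K : Set V} {m : ℕ} {u : Fin m → V} {B : ∀ i, Base (u i)}
    (h : Covers K u B) : ∃ B' : ∀ i, Base (e (u i)), Covers (e '' K) (fun i => e (u i)) B' ∧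
      ∑ i, area (B' i) = ∑ i, area (B i) ∧
      ∑ i, area (B' i) / shadow (e '' K) (e (u i)) = ∑ i, area (B i) / shadow K (u i) := by
  have ha : ∀ i, area (pe e (u i) '' B i : Base (e (u i))) = area (B i) :=
    fun i => congrArg ENNReal.toReal (vol_pe e (B i))
  refine ⟨fun i => pe e (u i) '' B i, ⟨fun i => ⟨(e.norm_map _).trans (h.1 i).1, ?_, ?_⟩, ?_⟩,
    by simp only [ha], by simp only [ha, shadow_map]⟩
  · beta_reduce
    rw [pe_image]
    exact (h.1 i).2.1.preimage (pe e (u i)).symm.measurePreserving.quasiMeasurePreserving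
  · beta_reduce
    rw [vol_pe]
    exact (h.1 i).2.2
  · rintro _ ⟨x, hx, rfl⟩
    obtain ⟨i, b, hb, t, rfl⟩ := h.2 x hx
    exact ⟨i, _, ⟨b, hb, rfl⟩, t, by rw [map_add, map_smul]; rfl⟩

theorem img_symm (e : V ≃ₗᵢ[ℝ] W) (K : Set V) : e.symm '' (e '' K) = K :=
  e.toEquiv.symm_image_image K

theorem exists_iso (hV : Module.finrank ℝ V = 3) : Nonempty (V ≃ₗᵢ[ℝ] E3) :=
  ⟨(stdOrthonormalBasis ℝ V).repr.trans (LinearIsometryEquiv.piLpCongrLeft 2 ℝ ℝ (finCongr hV))⟩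

variable (hV : Module.finrank ℝ V = 3)
include hV

theorem counter' : ∃ K : Set V, IsBody K ∧ ∃ (m : ℕ) (u : Fin m → V) (B : ∀ i, Base (u i)),
    Covers K u B ∧ ∑ i, area (B i) < 1 / 2 * Amin K ∧
      ∑ i, area (B i) / shadow K (u i) < 1 / 2 := by
  obtain ⟨e⟩ := exists_iso hV
  obtain ⟨K, hK, m, u, B, hc, h1, h2⟩ := counter
  obtain ⟨B', h3, h4, h5⟩ := hc.map e.symm
  exact ⟨_, hK.map e.symm, m, _, B', h3, by rw [h4, Amin_map]; exact h1, by rw [h5]; exact h2⟩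

theorem wellDef' {K : Set V} (hK : IsBody K) :
    IsLeast (shadow K '' {u | ‖u‖ = 1}) (Amin K) ∧ 0 < Amin K := by
  obtain ⟨e⟩ := exists_iso hV
  rw [← shadows_map e, ← Amin_map e]
  exact wellDef (hK.map e)

variable {v : Fin 4 → V} {T : Set V}

theorem tet_body' (h : IsTet v T) : IsBody T := by
  obtain ⟨e⟩ := exists_iso hV
  obtain ⟨h1, h2⟩ := h.map e
  rw [← img_symm e T, h2]
  exact (tet_body h1).map e.symm

theorem tet_edge' (h : IsTet v T) {m : ℕ} {u : Fin m → V} {B : ∀ i, Base (u i)}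
    (hc : Covers T u B) (he : AlongEdges v u) :
    1 / 2 ≤ ∑ i, area (B i) / shadow T (u i) ∧ 1 / 2 * Amin T ≤ ∑ i, area (B i) := by
  obtain ⟨e⟩ := exists_iso hV
  obtain ⟨h1, h2⟩ := h.map e
  obtain ⟨B', h3, h4, h5⟩ := hc.map e
  rw [← h4, ← h5, ← Amin_map e]
  rw [h2] at h3 ⊢
  exact ⟨tet_edge h1 h3 (he.map e), total_ge (tet_body h1) h3 (tet_edge h1 h3 (he.map e))⟩

theorem tet_all' (h : IsTet v T) {m : ℕ} {u : Fin m → V} {B : ∀ i, Base (u i)}
    (hc : Covers T u B) :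
    5 / 14 ≤ ∑ i, area (B i) / shadow T (u i) ∧ 5 / 14 * Amin T ≤ ∑ i, area (B i) := by
  obtain ⟨e⟩ := exists_iso hV
  obtain ⟨h1, h2⟩ := h.map e
  obtain ⟨B', h3, h4, h5⟩ := hc.map e
  rw [← h4, ← h5, ← Amin_map e]
  rw [h2] at h3 ⊢
  exact ⟨tet_all h1 h3, total_ge (tet_body h1) h3 (tet_all h1 h3)⟩

theorem tet_sharp' (h : IsTet v T) : ∃ (u : Fin 2 → V) (B : ∀ i, Base (u i)),
    Covers T u B ∧ AlongEdges v u ∧ ∑ i, area (B i) / shadow T (u i) = 1 / 2 := by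
  obtain ⟨e⟩ := exists_iso hV
  obtain ⟨h1, h2⟩ := h.map e
  obtain ⟨u, B, h3, h4, h5⟩ := tet_sharp h1
  rw [← h2] at h3 h5
  obtain ⟨B', h6, -, h7⟩ := h3.map e.symm
  rw [img_symm] at h6 h7
  refine ⟨_, B', h6, ?_, h7.trans h5⟩
  have h8 := AlongEdges.map e.symm h4
  simp only [e.symm_apply_apply] at h8
  exact h8

theorem tet_up' (h : IsTet v T) {ε : ℝ} (hε : 0 < ε) :
    ∃ (m : ℕ) (u : Fin m → V) (B : ∀ i, Base (u i)), Covers T u B ∧
      ∑ i, area (B i) / shadow T (u i) ≤ 5 / 12 + ε := by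
  obtain ⟨e⟩ := exists_iso hV
  obtain ⟨h1, h2⟩ := h.map e
  obtain ⟨m, u, B, h3, h5⟩ := tet_up h1 hε
  rw [← h2] at h3 h5
  obtain ⟨B', h6, -, h7⟩ := h3.map e.symm
  rw [img_symm] at h6 h7
  exact ⟨m, _, B', h6, h7.trans_le h5⟩

end Vale.Agent.N243
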