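import Vale.Agent.N243.Vol

/-! Lower bounds for coverings of the standard tetrahedron. -/

set_option linter.all false

open MeasureTheory Set Metric
open scoped ENNReal

namespace Vale.Agent.N243

open Vale.Agent.P243.LB (Dir Body Ar Vl fl)

/-- The standard tetrahedron in Euclidean space. -/
def S : Set E3 := WithLp.ofLp ⁻¹' S0

theorem vol_pre {A : Set (Fin 3 → ℝ)} (hA : IsClosed A) :
    volume (WithLp.ofLp ⁻¹' A : Set E3) = volume A :=
  (PiLp.volume_preserving_ofLp (Fin 3)).measure_preimage hA.measurableSet.nullMeasurableSet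

theorem closed_pre {A : Set (Fin 3 → ℝ)} (hA : IsClosed A) :
    IsClosed (WithLp.ofLp ⁻¹' A : Set E3) := hA.preimage (PiLp.continuous_ofLp 2 _)

theorem lf_add (x y : E3) (s : ℝ) (i : Fin 4) :
    lf (x + s • y).ofLp i = lf x.ofLp i + s * lf y.ofLp i := by
  fin_cases i <;> simp <;> ring

theorem lf_sum (y : Fin 3 → ℝ) : lf y 0 + lf y 1 + lf y 2 + lf y 3 = 0 := by
  simp
  ring

theorem body_S : Body 4 S := by
  have hb : S ⊆ closedBall 0 4 := by
    intro x hx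
    obtain ⟨h0, h1, h2, h3⟩ := forall4.1 hx
    simp only [lf0, lf1, lf2, lf3] at h0 h1 h2 h3
    rw [mem_closedBall_zero_iff, EuclideanSpace.norm_eq, Real.sqrt_le_left (by norm_num)]
    simp only [Fin.sum_univ_three, Real.norm_eq_abs, sq_abs]
    have a0 : x.ofLp 0 ^ 2 ≤ 4 := by nlinarith
    have a1 : x.ofLp 1 ^ 2 ≤ 4 := by nlinarith
    have a2 : x.ofLp 2 ^ 2 ≤ 4 := by nlinarith
    linarith
  refine ⟨(isCompact_closedBall 0 4).of_isClosed_subset (closed_pre closed_S0) hb, ?_, ?_, hb⟩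
  · intro x hx y hy a b ha hb hab i
    have h1 := hx i
    have h2 := hy i
    have e : lf (a • x + b • y).ofLp i = a * lf x.ofLp i + b * lf y.ofLp i := by
      fin_cases i <;> simp <;> ring
    rw [e]
    nlinarith
  · intro x hx
    rw [mem_closedBall_zero_iff, EuclideanSpace.norm_eq, Real.sqrt_le_left (by norm_num)] at hx
    simp only [Fin.sum_univ_three, Real.norm_eq_abs, sq_abs] at hx
    refine forall4.2 ⟨?_, ?_, ?_, ?_⟩ <;> simp only [lf0, lf1, lf2, lf3]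
    · nlinarith [sq_nonneg (x.ofLp 0 + 1), sq_nonneg (x.ofLp 1 + 1), sq_nonneg (x.ofLp 2 + 1)]
    · nlinarith [sq_nonneg (x.ofLp 0 + 1), sq_nonneg (x.ofLp 1 - 1), sq_nonneg (x.ofLp 2 - 1)]
    · nlinarith [sq_nonneg (x.ofLp 0 - 1), sq_nonneg (x.ofLp 1 + 1), sq_nonneg (x.ofLp 2 - 1)]
    · nlinarith [sq_nonneg (x.ofLp 0 - 1), sq_nonneg (x.ofLp 1 - 1), sq_nonneg (x.ofLp 2 + 1)]

/-- The gauge of the difference body of `S`. -/
noncomputable def gN (y : Fin 3 → ℝ) : ℝ := (|lf y 0| + |lf y 1| + |lf y 2| + |lf y 3|) / 16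

theorem gN_pos {u : E3} (hu : ‖u‖ = 1) : 0 < gN u.ofLp := by
  by_contra h
  have h0 := abs_nonneg (lf u.ofLp 0)
  have h1 := abs_nonneg (lf u.ofLp 1)
  have h2 := abs_nonneg (lf u.ofLp 2)
  have h3 := abs_nonneg (lf u.ofLp 3)
  unfold gN at h
  have e0 : lf u.ofLp 0 = 0 := abs_eq_zero.1 (by linarith)
  have e1 : lf u.ofLp 1 = 0 := abs_eq_zero.1 (by linarith)
  have e2 : lf u.ofLp 2 = 0 := abs_eq_zero.1 (by linarith)
  have e3 : lf u.ofLp 3 = 0 := abs_eq_zero.1 (by linarith)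
  simp only [lf0, lf1, lf2, lf3] at e0 e1 e2 e3
  have : u = 0 := by
    ext j
    fin_cases j <;> simp <;> linarith
  rw [this, norm_zero] at hu
  exact zero_ne_one hu

/-- The longest chord of `S` in a given direction. -/
theorem long_chord (D : Dir) : ∃ y, 1 / gN D.u.ofLp ≤ fl D S y := by
  set N := gN D.u.ofLp with hN
  have hN0 : 0 < N := gN_pos D.norm_u
  set a := lf D.u.ofLp with ha
  have hs : a 0 + a 1 + a 2 + a 3 = 0 := lf_sum _
  have hN' : |a 0| + |a 1| + |a 2| + |a 3| = 16 * N := by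
    rw [hN]
    unfold gN
    ring
  set w : Fin 4 → ℝ := fun i => (|a i| - a i) / (2 * N) with hw
  have hw1 : w 0 + w 1 + w 2 + w 3 = 8 := by
    simp only [hw]
    field_simp
    linarith
  set p : E3 := WithLp.toLp 2 ![(w 0 + w 1 - w 2 - w 3) / 4, (w 0 - w 1 + w 2 - w 3) / 4,
    (w 0 - w 1 - w 2 + w 3) / 4] with hp
  have hpl : ∀ i, lf p.ofLp i = w i - 2 := by
    refine forall4.2 ⟨?_, ?_, ?_, ?_⟩ <;> simp [hp] <;> linarith
  have hin : ∀ s, 0 ≤ s → s ≤ 1 / N → p + s • D.u ∈ S := by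
    intro s h0 h1 i
    change -2 ≤ lf (p + s • D.u).ofLp i
    rw [lf_add, hpl, ← ha]
    have h2 : s * N ≤ 1 := by rwa [le_div_iff₀ hN0] at h1
    have h3 : w i * (2 * N) = |a i| - a i := by
      simp only [hw]
      field_simp
    have h4 : 0 ≤ (w i + s * a i) * (2 * N) := by
      rcases abs_cases (a i) with ⟨h5, h6⟩ | ⟨h5, h6⟩
      · have := mul_nonneg (mul_nonneg h0 h6) hN0.le
        nlinarith
      · nlinarith
    have h5 := nonneg_of_mul_nonneg_left h4 (by positivity)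
    linarith
  have hp0 : p ∈ S := by simpa using hin 0 le_rfl (by positivity)
  obtain ⟨α, β, -, hch, hfl⟩ := Vale.Agent.P243.LB.chord body_S D (x := p) ⟨p, hp0, rfl⟩
  refine ⟨D.φ p, ?_⟩
  have h1 := (hch 0).1 (hin 0 le_rfl (by positivity))
  have h2 := (hch (1 / N)).1 (hin _ (by positivity) le_rfl)
  rw [hfl]
  linarith [h1.1, h2.2]

/-- The inequality of Rogers and Shephard for `S`. -/
theorem rs_S (D : Dir) : D.c * Ar D S ≤ 3 * Vl S * gN D.u.ofLp := by
  obtain ⟨y, hy⟩ := long_chord D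
  have h1 := Vale.Agent.P243.LB.H713.p_rs 4 S body_S D y
  have h2 : 0 ≤ D.c * Ar D S := mul_nonneg D.c_pos.le ENNReal.toReal_nonneg
  have h3 := gN_pos D.norm_u
  have h4 := (mul_le_mul_of_nonneg_left hy h2).trans h1
  rwa [mul_one_div, div_le_iff₀ h3] at h4

/-- One cylinder and two weighted sets. -/
theorem one_cyl (D : Dir) {B : Set (ℝ × ℝ)} (hm : MeasurableSet B) (hf : volume B ≠ ∞)
    {X Y : Set E3} (hX : MeasurableSet X) (hY : MeasurableSet Y) {ρ : ℝ} (hρ : 0 ≤ ρ)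
    (h : ∀ y, volume {s : ℝ | D.ℓ y + s • D.u ∈ X} + volume {s : ℝ | D.ℓ y + s • D.u ∈ Y} ≤
      ENNReal.ofReal (ρ / gN D.u.ofLp)) :
    (volume (X ∩ D.φ ⁻¹' B)).toReal + (volume (Y ∩ D.φ ⁻¹' B)).toReal ≤
      3 * ρ * Vl S * ((volume B).toReal / Ar D S) := by
  have hN := gN_pos D.norm_u
  have hA := Vale.Agent.P243.LB.ar_pos body_S D
  have hmeas : Measurable fun y : ℝ × ℝ => volume {s : ℝ | D.ℓ y + s • D.u ∈ X} := by
    have hc : Continuous fun p : (ℝ × ℝ) × ℝ => D.ℓ p.1 + p.2 • D.u := by fun_prop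
    exact measurable_measure_prodMk_left (ν := (volume : Measure ℝ)) (hc.measurable hX)
  have h1 : volume (X ∩ D.φ ⁻¹' B) + volume (Y ∩ D.φ ⁻¹' B) ≤
      ENNReal.ofReal D.c * (ENNReal.ofReal (ρ / gN D.u.ofLp) * volume B) := by
    rw [Vale.Agent.P243.LB.fub_base D hX hm, Vale.Agent.P243.LB.fub_base D hY hm, ← mul_add,
      ← lintegral_add_left hmeas, ← setLIntegral_const]
    exact mul_le_mul_right (lintegral_mono h) _
  have h2 : ENNReal.ofReal D.c * (ENNReal.ofReal (ρ / gN D.u.ofLp) * volume B) ≠ ∞ :=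
    ENNReal.mul_ne_top ENNReal.ofReal_ne_top (ENNReal.mul_ne_top ENNReal.ofReal_ne_top hf)
  have h3 := ENNReal.toReal_mono h2 h1
  have h4 := ENNReal.add_ne_top.1 (ne_top_of_le_ne_top h2 h1)
  rw [ENNReal.toReal_add h4.1 h4.2, ENNReal.toReal_mul, ENNReal.toReal_mul,
    ENNReal.toReal_ofReal D.c_pos.le, ENNReal.toReal_ofReal (by positivity)] at h3
  refine h3.trans ?_
  have h5 := rs_S D
  have h6 : 0 ≤ (volume B).toReal := ENNReal.toReal_nonneg
  have h7 : D.c / gN D.u.ofLp ≤ 3 * Vl S / Ar D S := by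
    rw [div_le_div_iff₀ hN hA]
    linarith
  calc D.c * (ρ / gN D.u.ofLp * (volume B).toReal)
      = D.c / gN D.u.ofLp * (ρ * (volume B).toReal) := by ring
    _ ≤ 3 * Vl S / Ar D S * (ρ * (volume B).toReal) :=
        mul_le_mul_of_nonneg_right h7 (by positivity)
    _ = _ := by ring

/-- All cylinders and two weighted sets. -/
theorem all_cyl {m : ℕ} (D : Fin m → Dir) (B : Fin m → Set (ℝ × ℝ))
    (hf : ∀ i, volume (B i) ≠ ∞) (hcov : S ⊆ ⋃ i, (D i).φ ⁻¹' B i)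
    {X Y : Set E3} (hX : MeasurableSet X) (hY : MeasurableSet Y) (hXS : X ⊆ S) (hYS : Y ⊆ S)
    {ρ : ℝ} (hρ : 0 ≤ ρ)
    (h : ∀ i y, volume {s : ℝ | (D i).ℓ y + s • (D i).u ∈ X} +
      volume {s : ℝ | (D i).ℓ y + s • (D i).u ∈ Y} ≤ ENNReal.ofReal (ρ / gN (D i).u.ofLp)) :
    (volume X).toReal + (volume Y).toReal ≤
      3 * ρ * Vl S * ∑ i, (volume (B i)).toReal / Ar (D i) S := by
  have hS : volume S ≠ ∞ := body_S.cpt.measure_lt_top.ne
  have hc : S ⊆ ⋃ i, (D i).φ ⁻¹' toMeasurable volume (B i) :=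
    hcov.trans (iUnion_mono fun i x hx => subset_toMeasurable volume (B i) hx)
  have h1 := Vale.Agent.P243.LB.cov_le (ne_top_of_le_ne_top hS (measure_mono hXS)) (hXS.trans hc)
  have h2 := Vale.Agent.P243.LB.cov_le (ne_top_of_le_ne_top hS (measure_mono hYS)) (hYS.trans hc)
  refine (add_le_add h1 h2).trans ?_
  rw [← Finset.sum_add_distrib, Finset.mul_sum]
  refine Finset.sum_le_sum fun i _ => ?_
  have h3 := one_cyl (D i) (measurableSet_toMeasurable volume (B i))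
    (by rw [measure_toMeasurable]; exact hf i) hX hY hρ (h i)
  rwa [measure_toMeasurable] at h3

theorem vol_le_of {A : Set ℝ} {C : ℝ} (h : ∀ x ∈ A, ∀ y ∈ A, x ≤ y → y - x ≤ C) :
    volume A ≤ ENNReal.ofReal C := by
  refine (Real.volume_le_diam A).trans (ediam_le_of_forall_dist_le fun x hx y hy => ?_)
  rcases le_total x y with h1 | h1
  · rw [Real.dist_eq, abs_sub_comm, abs_of_nonneg (by linarith)]
    exact h x hx y hy h1
  · rw [Real.dist_eq, abs_of_nonneg (by linarith)]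
    exact h y hy x hx h1

theorem gauge_X {x y : Fin 3 → ℝ} (hx : x ∈ X0) (hy : y ∈ X0) :
    |lf y 0 - lf x 0| + |lf y 1 - lf x 1| + |lf y 2 - lf x 2| + |lf y 3 - lf x 3| ≤ 96 / 7 := by
  obtain ⟨⟨a0, b0⟩, ⟨a1, b1⟩, ⟨a2, b2⟩, ⟨a3, b3⟩⟩ := forall4.1 hx.1
  obtain ⟨⟨c0, d0⟩, ⟨c1, d1⟩, ⟨c2, d2⟩, ⟨c3, d3⟩⟩ := forall4.1 hy.1
  obtain ⟨e0, e1, e2⟩ := forall3.1 hx.2
  obtain ⟨f0, f1, f2⟩ := forall3.1 hy.2
  rw [abs_le] at e0 e1 e2 f0 f1 f2
  simp only [lf0, lf1, lf2, lf3] at *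
  rcases abs_cases (y 0 + y 1 + y 2 - (x 0 + x 1 + x 2)) with ⟨g0, -⟩ | ⟨g0, -⟩ <;>
  rcases abs_cases (y 0 - y 1 - y 2 - (x 0 - x 1 - x 2)) with ⟨g1, -⟩ | ⟨g1, -⟩ <;>
  rcases abs_cases (-y 0 + y 1 - y 2 - (-x 0 + x 1 - x 2)) with ⟨g2, -⟩ | ⟨g2, -⟩ <;>
  rcases abs_cases (-y 0 - y 1 + y 2 - (-x 0 - x 1 + x 2)) with ⟨g3, -⟩ | ⟨g3, -⟩ <;>
  rw [g0, g1, g2, g3] <;> linarith [e0.1, e0.2, e1.1, e1.2, e2.1, e2.2, f0.1, f0.2, f1.1, f1.2,
    f2.1, f2.2]

theorem Vl_S : Vl S = (volume S0).toReal := by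
  unfold Vl S
  rw [vol_pre closed_S0]

/-- **All directions**: the bound `5 / 14`. -/
theorem low_all {m : ℕ} (D : Fin m → Dir) (B : Fin m → Set (ℝ × ℝ))
    (hf : ∀ i, volume (B i) ≠ ∞) (hcov : S ⊆ ⋃ i, (D i).φ ⁻¹' B i) :
    5 / 14 ≤ ∑ i, (volume (B i)).toReal / Ar (D i) S := by
  have h1 := all_cyl D B hf hcov (X := WithLp.ofLp ⁻¹' X0) (Y := ∅)
    (closed_pre closed_X0).measurableSet MeasurableSet.empty (fun x hx i => (hx.1 i).1)
    (empty_subset _) (ρ := 6 / 7) (by norm_num) (by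
      intro i y
      have hN := gN_pos (D i).norm_u
      simp only [mem_empty_iff_false, setOf_false, measure_empty, add_zero]
      refine vol_le_of fun s hs t ht hst => ?_
      have h2 := gauge_X hs ht
      simp only [lf_add, add_sub_add_left_eq_sub, ← sub_mul, abs_mul,
        abs_of_nonneg (sub_nonneg.2 hst)] at h2
      rw [le_div_iff₀ hN]
      unfold gN
      linarith)
  rw [vol_pre closed_X0, measure_empty, ENNReal.toReal_zero, add_zero, Vl_S] at h1
  have h2 := vol_X0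
  have h3 : (volume S0).toReal ≤ 64 / 3 :=
    ENNReal.toReal_le_of_le_ofReal (by norm_num) vol_S0
  have h4 : 0 ≤ ∑ i, (volume (B i)).toReal / Ar (D i) S :=
    Finset.sum_nonneg fun i _ => div_nonneg ENNReal.toReal_nonneg ENNReal.toReal_nonneg
  nlinarith

/-- The vertices of `S`. -/
noncomputable def wv (i : Fin 4) : E3 := WithLp.toLp 2 fun j => 2 * sg i j

theorem lf_wv (i k : Fin 4) : lf (wv k).ofLp i = if i = k then 6 else -2 := by
  fin_cases i <;> fin_cases k <;> simp [wv, sg] <;> norm_num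

theorem lf_sub (x y : E3) (i : Fin 4) : lf (x - y).ofLp i = lf x.ofLp i - lf y.ofLp i := by
  fin_cases i <;> simp <;> ring

theorem lf_smul (r : ℝ) (x : E3) (i : Fin 4) : lf (r • x).ofLp i = r * lf x.ofLp i := by
  fin_cases i <;> simp <;> ring

theorem pair_le {a : Fin 4 → ℝ} (hs : a 0 + a 1 + a 2 + a 3 = 0) (h : ∀ i, -2 ≤ a i)
    {j k : Fin 4} (hjk : j ≠ k) : a j + a k ≤ 4 := by
  obtain ⟨h0, h1, h2, h3⟩ := forall4.1 h
  fin_cases j <;> fin_cases k <;> simp at hjk ⊢ <;> linarith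

/-- Chords parallel to an edge. -/
theorem edge_chord {u p : E3} {j k : Fin 4} (hjk : j ≠ k) {r : ℝ} (hr : 0 < r)
    (hu : u = r • (wv j - wv k)) :
    volume {s : ℝ | p + s • u ∈ S} + volume {s : ℝ | p + s • u ∈ (WithLp.ofLp ⁻¹' O0 : Set E3)} ≤
      ENNReal.ofReal (1 / gN u.ofLp) := by
  have hj : lf u.ofLp j = 8 * r := by
    rw [hu, lf_smul, lf_sub, lf_wv, lf_wv, if_pos rfl, if_neg hjk]
    ring
  have hk : lf u.ofLp k = -(8 * r) := by
    rw [hu, lf_smul, lf_sub, lf_wv, lf_wv, if_pos rfl, if_neg hjk.symm]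
    ring
  have hN : gN u.ofLp = r := by
    have h1 : ∀ i, |lf u.ofLp i| = (if i = j then 8 * r else 0) + if i = k then 8 * r else 0 := by
      intro i
      by_cases a : i = j
      · rw [a, hj, if_pos rfl, if_neg hjk, abs_of_pos (by positivity), add_zero]
      · by_cases b : i = k
        · rw [b, hk, if_neg hjk.symm, if_pos rfl, abs_neg, abs_of_pos (by positivity), zero_add]
        · rw [hu, lf_smul, lf_sub, lf_wv, lf_wv, if_neg a, if_neg a, if_neg b, if_neg b]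
          simp
    unfold gN
    rw [← Fin.sum_univ_four (fun i => |lf u.ofLp i|), Finset.sum_congr rfl fun i _ => h1 i,
      Finset.sum_add_distrib]
    simp
    ring
  rw [hN]
  set σ := 4 - (lf p.ofLp j + lf p.ofLp k) with hσ
  by_cases hne : {s : ℝ | p + s • u ∈ S}.Nonempty
  · obtain ⟨s₀, hs₀⟩ := hne
    have a1 := pair_le (lf_sum (p + s₀ • u).ofLp) hs₀ hjk
    have a2 := hs₀ j
    have a3 := hs₀ k
    change -2 ≤ lf (p + s₀ • u).ofLp j at a2
    change -2 ≤ lf (p + s₀ • u).ofLp k at a3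
    rw [lf_add, hj] at a1 a2
    rw [lf_add, hk] at a1 a3
    have h8 : 0 < 8 * r := by positivity
    have b1 : volume {s : ℝ | p + s • u ∈ S} ≤ ENNReal.ofReal ((8 - σ) / (8 * r)) := by
      refine vol_le_of fun s hs t ht _ => ?_
      have c1 := hs j
      have c2 := ht k
      change -2 ≤ lf (p + s • u).ofLp j at c1
      change -2 ≤ lf (p + t • u).ofLp k at c2
      rw [lf_add, hj] at c1
      rw [lf_add, hk] at c2
      rw [le_div_iff₀ h8]
      linarith
    have b2 : volume {s : ℝ | p + s • u ∈ (WithLp.ofLp ⁻¹' O0 : Set E3)} ≤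
        ENNReal.ofReal (σ / (8 * r)) := by
      refine vol_le_of fun s hs t ht _ => ?_
      have c1 := (hs k).2
      have c2 := (ht j).2
      rw [lf_add, hk] at c1
      rw [lf_add, hj] at c2
      rw [le_div_iff₀ h8]
      linarith
    refine (add_le_add b1 b2).trans (le_of_eq ?_)
    rw [← ENNReal.ofReal_add (div_nonneg (by linarith) h8.le) (div_nonneg (by linarith) h8.le)]
    congr 1
    field_simp
    ring
  · have e1 := not_nonempty_iff_eq_empty.1 hne
    have e2 : {s : ℝ | p + s • u ∈ (WithLp.ofLp ⁻¹' O0 : Set E3)} = ∅ :=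
      eq_empty_of_forall_notMem fun s hs => hne ⟨s, fun i => (hs i).1⟩
    rw [e1, e2, measure_empty, add_zero]
    exact zero_le

/-- **Edge directions**: the bound `1 / 2`. -/
theorem low_edge {m : ℕ} (D : Fin m → Dir) (B : Fin m → Set (ℝ × ℝ))
    (hf : ∀ i, volume (B i) ≠ ∞) (hcov : S ⊆ ⋃ i, (D i).φ ⁻¹' B i)
    (he : ∀ i, ∃ j k, ∃ r : ℝ, (D i).u = r • (wv j - wv k)) :
    1 / 2 ≤ ∑ i, (volume (B i)).toReal / Ar (D i) S := by
  have h1 := all_cyl D B hf hcov (X := S) (Y := WithLp.ofLp ⁻¹' O0)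
    (closed_pre closed_S0).measurableSet (closed_pre closed_O0).measurableSet subset_rfl
    (fun x hx i => (hx i).1) (ρ := 1) (by norm_num) (by
      intro i y
      obtain ⟨j, k, r, hr⟩ := he i
      have hu := (D i).norm_u
      have hjk : j ≠ k := by
        rintro rfl
        rw [hr, sub_self, smul_zero, norm_zero] at hu
        exact zero_ne_one hu
      rcases lt_trichotomy r 0 with h | h | h
      · refine edge_chord hjk.symm (neg_pos.2 h) ?_
        rw [hr, neg_smul, ← smul_neg, neg_sub]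
      · rw [hr, h, zero_smul, norm_zero] at hu
        exact absurd hu zero_ne_one
      · exact edge_chord hjk h hr)
  have h2 := vol_O0
  have h3 := Vale.Agent.P243.LB.vl_pos body_S
  rw [vol_pre closed_O0] at h1
  change Vl S + _ ≤ _ at h1
  rw [← Vl_S] at h2
  by_contra hc
  have h4 := mul_lt_mul_of_pos_left (not_le.1 hc) h3
  linarith

end Vale.Agent.N243
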