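import Vale.Agent.N243.Low

/-! Transfer to arbitrary tetrahedra, and the statements in the terms of `Defs`. -/

set_option linter.all false

open MeasureTheory Set Metric
open scoped ENNReal

namespace Vale.Agent.N243

open Vale.Agent.P243.LB (Dir Body Ar Vl fl)
open Vale.Agent.P243 (proj K0)
open Vale.Agent.P243E (Ad ad_of_axis mem_cylinder proj_eq_zero Covering)
open Vale.Agent.P243.Bridge (flat volume_image_equiv finrank_perp)

theorem Covers.mem {K : Set E3} {m : ℕ} {u : Fin m → E3} {B : ∀ i, Set (ℝ ∙ u i)ᗮ}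
    (h : Covers K u B) {x : E3} (hx : x ∈ K) : ∃ i, proj (u i) x ∈ B i := by
  obtain ⟨i, hi⟩ := h.2 x hx
  exact ⟨i, mem_cylinder.1 hi⟩

theorem covers_of {K : Set E3} {m : ℕ} {u : Fin m → E3} {B : ∀ i, Set (ℝ ∙ u i)ᗮ}
    (h1 : ∀ i, ‖u i‖ = 1 ∧ NullMeasurableSet (B i) volume ∧ volume (B i) ≠ ⊤)
    (h2 : ∀ x ∈ K, ∃ i, proj (u i) x ∈ B i) : Covers K u B :=
  ⟨h1, fun x hx => (h2 x hx).imp fun _ hi => mem_cylinder.2 hi⟩

/-- A covering of an affine image of `S`, seen on `S`. -/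
theorem transfer {K : Set E3} (L : E3 ≃L[ℝ] E3) (c : E3) (hK : K = (fun x => L x + c) '' S)
    {m : ℕ} {u : Fin m → E3} {B : ∀ i, Set (ℝ ∙ u i)ᗮ} (h : Covers K u B) :
    ∃ (D : Fin m → Dir) (B' : Fin m → Set (ℝ × ℝ)), (∀ i, volume (B' i) = volume (B i)) ∧
      (S ⊆ ⋃ i, (D i).φ ⁻¹' B' i) ∧ (∀ i, Ar (D i) S = shadow K (u i)) ∧
      ∀ i, L (D i).u ∈ ℝ ∙ u i := by
  choose F e had using fun i => ad_of_axis (h.1 i).1
  set ψ : Fin m → (E3 →L[ℝ] ℝ × ℝ) := fun i => (Vale.Agent.P243.LB.G.projL (F i)).comp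
    (EuclideanSpace.equiv (Fin 3) ℝ).toContinuousLinearMap with hψ
  have hψa : ∀ i x, ψ i x = e i (proj (u i) x) := fun i x => (had i).2 x
  have hs : ∀ i, Function.Surjective ((ψ i).comp (L : E3 →L[ℝ] E3)) := by
    intro i y
    obtain ⟨x, hx⟩ := Vale.Agent.P243.LB.G.proj_surjective (F i) y
    refine ⟨L.symm (WithLp.toLp 2 x), ?_⟩
    change ψ i (L (L.symm _)) = y
    rw [L.apply_symm_apply]
    exact hx
  choose D hD using fun i => Vale.Agent.P243.LB.Dirn.dir _ (hs i)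
  have hkey : ∀ i x, (D i).φ x + ψ i c = e i (proj (u i) (L x + c)) := by
    intro i x
    rw [hD i, ← hψa, map_add]
    rfl
  refine ⟨D, fun i => (fun y => y + ψ i c) ⁻¹' (e i '' B i), fun i => ?_, fun x hx => ?_,
    fun i => ?_, fun i => ?_⟩
  · rw [measure_preimage_add_right, volume_image_equiv (had i).1]
  · obtain ⟨i, hi⟩ := h.mem (x := L x + c) (by rw [hK]; exact ⟨x, hx, rfl⟩)
    refine mem_iUnion.2 ⟨i, ?_⟩
    change (D i).φ x + ψ i c ∈ e i '' B i
    rw [hkey]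
    exact ⟨_, hi, rfl⟩
  · have h5 : (D i).φ '' S = (fun y => y + ψ i c) ⁻¹' (e i '' (proj (u i) '' K)) := by
      ext y
      constructor
      · rintro ⟨x, hx, rfl⟩
        exact ⟨_, ⟨L x + c, by rw [hK]; exact ⟨x, hx, rfl⟩, rfl⟩, (hkey i x).symm⟩
      · rintro ⟨_, ⟨k, hk, rfl⟩, hy⟩
        rw [hK] at hk
        obtain ⟨x, hx, rfl⟩ := hk
        exact ⟨x, hx, add_right_cancel ((hkey i x).trans hy)⟩
    unfold Ar
    rw [h5, measure_preimage_add_right, volume_image_equiv (had i).1]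
    rfl
  · refine ((had i).zero_iff _).1 ?_
    have h6 := (D i).φu
    rw [hD i] at h6
    exact h6

/-- The barycentric coordinates of `S`. -/
noncomputable def lam (x : E3) (i : Fin 4) : ℝ := (2 + lf x.ofLp i) / 8

theorem lam_sum (x : E3) : ∑ i, lam x i = 1 := by
  have := lf_sum x.ofLp
  simp only [Fin.sum_univ_four, lam]
  linarith

theorem exists_lam (w : Fin 4 → ℝ) (hw : w 0 + w 1 + w 2 + w 3 = 1) : ∃ x : E3, lam x = w := by
  refine ⟨WithLp.toLp 2 ![2 * (w 0 + w 1 - w 2 - w 3), 2 * (w 0 - w 1 + w 2 - w 3),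
    2 * (w 0 - w 1 - w 2 + w 3)], funext (forall4.2 ⟨?_, ?_, ?_, ?_⟩)⟩ <;> simp [lam] <;> linarith

theorem mem_S {x : E3} : x ∈ S ↔ ∀ i, 0 ≤ lam x i := by
  refine forall_congr' fun i => ?_
  change -2 ≤ lf x.ofLp i ↔ 0 ≤ (2 + lf x.ofLp i) / 8
  constructor <;> intro h <;> linarith

theorem lam_wv (k i : Fin 4) : lam (wv k) i = if i = k then 1 else 0 := by
  unfold lam
  rw [lf_wv]
  split_ifs <;> norm_num

/-- A tetrahedron is an affine image of `S`. -/
theorem exists_L {v : Fin 4 → E3} (hv : AffineIndependent ℝ v) :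
    ∃ (L : E3 ≃L[ℝ] E3) (c : E3), (∀ x, L x + c = ∑ i, lam x i • v i) ∧
      convexHull ℝ (range v) = (fun x => L x + c) '' S := by
  let L0 : E3 →ₗ[ℝ] E3 :=
    { toFun := fun x => ∑ i, (lf x.ofLp i / 8) • v i
      map_add' := fun x y => by
        rw [← Finset.sum_add_distrib]
        refine Finset.sum_congr rfl fun i _ => ?_
        have := lf_add x y 1 i
        rw [one_smul, one_mul] at this
        rw [this, add_div, add_smul]
      map_smul' := fun r x => by
        rw [RingHom.id_apply, Finset.smul_sum]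
        refine Finset.sum_congr rfl fun i _ => ?_
        rw [lf_smul, smul_smul, mul_div_assoc] }
  have hinj : Function.Injective L0 := by
    rw [← LinearMap.ker_eq_bot, LinearMap.ker_eq_bot']
    intro x hx
    have h1 := affineIndependent_iff.1 hv Finset.univ (fun i => lf x.ofLp i / 8) (by
      have := lf_sum x.ofLp
      simp only [Fin.sum_univ_four]
      linarith) hx
    have e0 := h1 0 (Finset.mem_univ _)
    have e1 := h1 1 (Finset.mem_univ _)
    have e2 := h1 2 (Finset.mem_univ _)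
    have e3 := h1 3 (Finset.mem_univ _)
    simp only [lf0, lf1, lf2, lf3] at e0 e1 e2 e3
    ext j
    fin_cases j <;> simp <;> linarith
  let L := (LinearEquiv.ofInjectiveEndo L0 hinj).toContinuousLinearEquiv
  have hL : ∀ x, L x + ∑ i, (1 / 4 : ℝ) • v i = ∑ i, lam x i • v i := by
    intro x
    change (∑ i, (lf x.ofLp i / 8) • v i) + _ = _
    rw [← Finset.sum_add_distrib]
    refine Finset.sum_congr rfl fun i _ => ?_
    rw [← add_smul]
    congr 1
    unfold lam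
    ring
  refine ⟨L, _, hL, Subset.antisymm (convexHull_min ?_ ?_) ?_⟩
  · rintro _ ⟨k, rfl⟩
    refine ⟨wv k, mem_S.2 fun i => ?_, ?_⟩
    · rw [lam_wv]
      split_ifs <;> norm_num
    · simp only [hL, lam_wv, ite_smul, one_smul, zero_smul, Finset.sum_ite_eq', Finset.mem_univ,
        if_true]
  · have h1 := (body_S.cvx.linear_image L0).translate (∑ i, (1 / 4 : ℝ) • v i)
    rw [image_image] at h1
    convert h1 using 2 with x
    exact add_comm _ _
  · rintro _ ⟨x, hx, rfl⟩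
    simp only [hL]
    exact (convex_convexHull ℝ _).sum_mem (fun i _ => mem_S.1 hx i) (lam_sum x)
      fun i _ => subset_convexHull ℝ _ ⟨i, rfl⟩

theorem isBody_image (L : E3 ≃L[ℝ] E3) (c : E3) : IsBody ((fun x => L x + c) '' S) := by
  refine ⟨body_S.cpt.image (by fun_prop), ?_, ?_⟩
  · have h1 := (body_S.cvx.linear_image L.toLinearEquiv.toLinearMap).translate c
    rw [image_image] at h1
    have e : (fun x => L x + c) = fun x => c + L x := funext fun x => add_comm _ _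
    rw [e]
    exact h1
  · have h4 : IsOpenMap fun x => L x + c :=
      (L.toHomeomorph.trans (Homeomorph.addRight c)).isOpenMap
    have h3 : (interior S).Nonempty :=
      ⟨0, interior_mono body_S.ball (ball_subset_interior_closedBall (mem_ball_self one_pos))⟩
    exact (h3.image _).mono (h4.image_interior_subset S)

theorem wellDef {K : Set E3} (hK : IsBody K) :
    IsLeast (shadow K '' {u | ‖u‖ = 1}) (Amin K) ∧ 0 < Amin K :=
  ⟨(Vale.Agent.P243E.wellDefined K hK).1, (Vale.Agent.P243E.wellDefined K hK).2.1⟩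

/-- From the relative area to the total area. -/
theorem total_ge {K : Set E3} (hK : IsBody K) {m : ℕ} {u : Fin m → E3}
    {B : ∀ i, Set (ℝ ∙ u i)ᗮ} (h : Covers K u B) {t : ℝ}
    (ht : t ≤ ∑ i, area (B i) / shadow K (u i)) : t * Amin K ≤ ∑ i, area (B i) := by
  obtain ⟨h1, h2⟩ := wellDef hK
  rw [← le_div_iff₀ h2, Finset.sum_div]
  refine ht.trans (Finset.sum_le_sum fun i _ => ?_)
  exact div_le_div_of_nonneg_left ENNReal.toReal_nonneg h2 (h1.2 ⟨u i, (h.1 i).1, rfl⟩)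

theorem counter : ∃ K, IsBody K ∧ ∃ (m : ℕ) (u : Fin m → E3) (B : ∀ i, Set (ℝ ∙ u i)ᗮ),
    Covers K u B ∧ ∑ i, area (B i) < 1 / 2 * Amin K ∧
      ∑ i, area (B i) / shadow K (u i) < 1 / 2 := by
  obtain ⟨hK, C, -, h1, h2⟩ := Vale.Agent.P243E.coveredWithin
  refine ⟨_, hK, C.m, C.u, C.base, ⟨fun i => ⟨C.unit i, C.measurable_base i, C.finite_area i⟩,
    fun x hx => mem_iUnion.1 (C.covers hx)⟩, ?_, ?_⟩
  · have h3 := (wellDef hK).2
    change C.total < 1 / 2 * Vale.Agent.P243E.Amin _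
    change 0 < Vale.Agent.P243E.Amin _ at h3
    linarith
  · change C.rel < 1 / 2
    linarith

variable {v : Fin 4 → E3}

theorem tet_body (hv : AffineIndependent ℝ v) : IsBody (convexHull ℝ (range v)) := by
  obtain ⟨L, c, -, h⟩ := exists_L hv
  rw [h]
  exact isBody_image L c

theorem tet_all (hv : AffineIndependent ℝ v) {m : ℕ} {u : Fin m → E3}
    {B : ∀ i, Set (ℝ ∙ u i)ᗮ} (h : Covers (convexHull ℝ (range v)) u B) :
    5 / 14 ≤ ∑ i, area (B i) / shadow (convexHull ℝ (range v)) (u i) := by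
  obtain ⟨L, c, -, hK⟩ := exists_L hv
  obtain ⟨D, B', h1, h2, h3, -⟩ := transfer L c hK h
  have h4 := low_all D B' (fun i => by rw [h1]; exact (h.1 i).2.2) h2
  simp only [h1, h3] at h4
  exact h4

theorem tet_edge (hv : AffineIndependent ℝ v) {m : ℕ} {u : Fin m → E3}
    {B : ∀ i, Set (ℝ ∙ u i)ᗮ} (h : Covers (convexHull ℝ (range v)) u B)
    (he : ∀ i, ∃ j k, u i ∈ ℝ ∙ (v j - v k)) :
    1 / 2 ≤ ∑ i, area (B i) / shadow (convexHull ℝ (range v)) (u i) := by
  obtain ⟨L, c, hL, hK⟩ := exists_L hv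
  obtain ⟨D, B', h1, h2, h3, h5⟩ := transfer L c hK h
  have hw : ∀ k, L (wv k) + c = v k := by
    intro k
    simp only [hL, lam_wv, ite_smul, one_smul, zero_smul, Finset.sum_ite_eq', Finset.mem_univ,
      if_true]
  have h4 := low_edge D B' (fun i => by rw [h1]; exact (h.1 i).2.2) h2 (by
    intro i
    obtain ⟨j, k, hjk⟩ := he i
    obtain ⟨a, ha⟩ := Submodule.mem_span_singleton.1 hjk
    obtain ⟨b, hb⟩ := Submodule.mem_span_singleton.1 (h5 i)
    refine ⟨j, k, b * a, L.injective ?_⟩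
    rw [← hb, ← ha, map_smul, map_sub, smul_smul, ← hw j, ← hw k, add_sub_add_right_eq_sub])
  simp only [h1, h3] at h4
  exact h4

/-- One half of Bang's covering. -/
theorem half_cover (hv : AffineIndependent ℝ v) {a b c d : Fin 4} (hab : a ≠ b)
    (hsum : ∀ f : Fin 4 → E3, ∑ i, f i = f a + f b + f c + f d)
    (hsum' : ∀ f : Fin 4 → ℝ, ∑ i, f i = f a + f b + f c + f d) :
    ∃ u : E3, ‖u‖ = 1 ∧ u ∈ ℝ ∙ (v b - v a) ∧ ∃ B : Set (ℝ ∙ u)ᗮ, IsCompact B ∧
      area B / shadow (convexHull ℝ (range v)) u = 1 / 4 ∧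
      ∀ w : Fin 4 → ℝ, (∀ i, 0 ≤ w i) → ∑ i, w i = 1 → w c + w d ≤ 1 / 2 →
        proj u (∑ i, w i • v i) ∈ B := by
  set T := convexHull ℝ (range v) with hT
  have hne : v b - v a ≠ 0 := sub_ne_zero.2 fun h => hab (hv.injective h).symm
  have hn : ‖v b - v a‖ ≠ 0 := norm_ne_zero_iff.2 hne
  set u : E3 := ‖v b - v a‖⁻¹ • (v b - v a) with hu
  have hu1 : ‖u‖ = 1 := by rw [hu, norm_smul, norm_inv, norm_norm, inv_mul_cancel₀ hn]
  have hb := tet_body hv
  have hpos : 0 < shadow T u := (wellDef hb).2.trans_le ((wellDef hb).1.2 ⟨u, hu1, rfl⟩)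
  have hc : IsCompact (proj u '' T) := hb.1.image (Vale.Agent.P243.continuous_proj u)
  refine ⟨u, hu1, Submodule.smul_mem _ _ (Submodule.mem_span_singleton_self _),
    AffineMap.homothety (proj u (v a)) (1 / 2 : ℝ) '' (proj u '' T), hc.image (by fun_prop),
    ?_, ?_⟩
  · unfold area
    rw [Measure.addHaar_image_homothety, finrank_perp hu1, ENNReal.toReal_mul,
      ENNReal.toReal_ofReal (abs_nonneg _), div_eq_iff hpos.ne']
    change _ = 1 / 4 * (volume (proj u '' T)).toReal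
    norm_num
  · intro w h0 h1 h2
    have hv' : ∀ i, v i ∈ T := fun i => subset_convexHull ℝ _ ⟨i, rfl⟩
    have hx : (1 - 2 * w c - 2 * w d) • v a + (2 * w c) • v c + (2 * w d) • v d ∈ T := by
      have := (convex_convexHull ℝ (range v)).sum_mem (t := Finset.univ)
        (w := ![1 - 2 * w c - 2 * w d, 2 * w c, 2 * w d]) (z := ![v a, v c, v d])
        (fun i _ => by
          have := h0 c
          have := h0 d
          fin_cases i <;> simp <;> linarith) (by simp [Fin.sum_univ_three]; ring)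
        (fun i _ => by fin_cases i <;> exact hv' _)
      simpa [Fin.sum_univ_three] using this
    refine ⟨_, ⟨_, hx, rfl⟩, ?_⟩
    have hz : proj u (v b - v a) = 0 := by
      refine proj_eq_zero.2 (Submodule.mem_span_singleton.2 ⟨‖v b - v a‖, ?_⟩)
      rw [hu, smul_smul, mul_inv_cancel₀ hn, one_smul]
    have hz' : proj u (v b) = proj u (v a) := by
      have : proj u (v b - v a) = proj u (v b) - proj u (v a) := map_sub _ _ _
      rw [this] at hz
      exact sub_eq_zero.1 hz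
    rw [hsum'] at h1
    have ha : w a = 1 - w b - w c - w d := by linarith
    rw [hsum, AffineMap.homothety_apply]
    simp only [Vale.Agent.P243.proj_add, Vale.Agent.P243.proj_smul, hz', vsub_eq_sub,
      vadd_eq_add, ha]
    module

theorem tet_sharp (hv : AffineIndependent ℝ v) :
    ∃ (u : Fin 2 → E3) (B : ∀ i, Set (ℝ ∙ u i)ᗮ), Covers (convexHull ℝ (range v)) u B ∧
      (∀ i, ∃ j k, u i ∈ ℝ ∙ (v j - v k)) ∧
      ∑ i, area (B i) / shadow (convexHull ℝ (range v)) (u i) = 1 / 2 := by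
  obtain ⟨u₁, a1, a2, B₁, a3, a4, a5⟩ := half_cover hv (a := 0) (b := 1) (c := 2) (d := 3)
    (by decide) (fun f => Fin.sum_univ_four f) (fun f => Fin.sum_univ_four f)
  obtain ⟨u₂, b1, b2, B₂, b3, b4, b5⟩ := half_cover hv (a := 2) (b := 3) (c := 0) (d := 1)
    (by decide) (fun f => by rw [Fin.sum_univ_four]; abel)
    (fun f => by rw [Fin.sum_univ_four]; ring)
  have f1 : volume B₁ ≠ ⊤ := a3.measure_lt_top.ne
  have f2 : volume B₂ ≠ ⊤ := b3.measure_lt_top.ne
  have g1 : NullMeasurableSet B₁ volume := a3.measurableSet.nullMeasurableSet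
  have g2 : NullMeasurableSet B₂ volume := b3.measurableSet.nullMeasurableSet
  refine ⟨![u₁, u₂], Fin.cons B₁ (Fin.cons B₂ finZeroElim), covers_of ?_ ?_, ?_, ?_⟩
  · rw [Fin.forall_fin_two]
    exact ⟨⟨a1, g1, f1⟩, b1, g2, f2⟩
  · obtain ⟨L, c, hL, hK⟩ := exists_L hv
    rw [hK]
    rintro _ ⟨x, hx, rfl⟩
    simp only [hL]
    have h1 := lam_sum x
    have h2 := h1
    rw [Fin.sum_univ_four] at h2
    rcases le_total (lam x 2 + lam x 3) (1 / 2) with h | h
    · exact ⟨0, a5 _ (mem_S.1 hx) h1 h⟩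
    · exact ⟨1, b5 _ (mem_S.1 hx) h1 (by linarith)⟩
  · rw [Fin.forall_fin_two]
    exact ⟨⟨1, 0, a2⟩, 3, 2, b2⟩
  · rw [Fin.sum_univ_two]
    change area B₁ / shadow _ u₁ + area B₂ / shadow _ u₂ = _
    rw [a4, b4]
    norm_num

/-- The linear part of the map from `S` onto `K0`. -/
noncomputable def gl : E3 →L[ℝ] E3 := LinearMap.toContinuousLinearMap
  { toFun := fun x => WithLp.toLp 2 ![lf x.ofLp 1 / 8, lf x.ofLp 3 / 8,
      (lf x.ofLp 2 + lf x.ofLp 3) / 8]
    map_add' := fun x y => by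
      ext j
      fin_cases j <;> simp <;> ring
    map_smul' := fun r x => by
      ext j
      fin_cases j <;> simp <;> ring }

/-- The translation part of the map from `S` onto `K0`. -/
noncomputable def g0 : E3 := WithLp.toLp 2 ![1 / 4, 1 / 4, 1 / 2]

theorem gl_apply (x : E3) : (gl x + g0) 0 = lam x 1 ∧ (gl x + g0) 1 = lam x 3 ∧
    (gl x + g0) 2 = lam x 2 + lam x 3 := by
  refine ⟨?_, ?_, ?_⟩ <;> simp [gl, g0, lam] <;> ring

theorem gl_surj (k : E3) : ∃ x, gl x + g0 = k ∧ lam x = ![1 - k 2 - k 0, k 0, k 2 - k 1, k 1] := by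
  obtain ⟨x, hx⟩ := exists_lam ![1 - k 2 - k 0, k 0, k 2 - k 1, k 1] (by simp)
  obtain ⟨h0, h1, h2⟩ := gl_apply x
  refine ⟨x, ?_, hx⟩
  rw [hx] at h0 h1 h2
  ext j
  fin_cases j
  · exact h0
  · exact h1
  · exact h2.trans (by simp)

theorem K0_eq : K0 = (fun x => gl x + g0) '' S := by
  ext k
  constructor
  · rintro ⟨h0, h1, h2, h3⟩
    obtain ⟨x, hx, hl⟩ := gl_surj k
    refine ⟨x, mem_S.2 ?_, hx⟩
    rw [hl]
    refine forall4.2 ⟨?_, ?_, ?_, ?_⟩ <;> simp <;> linarith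
  · rintro ⟨x, hx, rfl⟩
    obtain ⟨h0, h1, h2⟩ := gl_apply x
    obtain ⟨a0, a1, a2, a3⟩ := forall4.1 (mem_S.1 hx)
    have h3 := lam_sum x
    rw [Fin.sum_univ_four] at h3
    refine ⟨?_, ?_, ?_, ?_⟩ <;> simp only [h0, h1, h2] <;> linarith

theorem tet_up (hv : AffineIndependent ℝ v) {ε : ℝ} (hε : 0 < ε) :
    ∃ (m : ℕ) (u : Fin m → E3) (B : ∀ i, Set (ℝ ∙ u i)ᗮ), Covers (convexHull ℝ (range v)) u B ∧
      ∑ i, area (B i) / shadow (convexHull ℝ (range v)) (u i) ≤ 5 / 12 + ε := by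
  obtain ⟨L, c, -, hK⟩ := exists_L hv
  obtain ⟨n, φ, R, h1, h2, h3, h4, h5, h6⟩ := Vale.Agent.P243.cover_exists ε hε
  set ψ : Fin n → (E3 →L[ℝ] ℝ × ℝ) := fun i => (φ i).comp (gl.comp (L.symm : E3 →L[ℝ] E3))
    with hψ
  have hkey : ∀ i x, ψ i (L x + c) + (φ i g0 - ψ i c) = φ i (gl x + g0) := by
    intro i x
    have : ψ i (L x) = φ i (gl x) := by
      change φ i (gl (L.symm (L x))) = _
      rw [L.symm_apply_apply]
    rw [map_add, map_add, this]
    abel
  obtain ⟨C, hC⟩ := Vale.Agent.P243.exists_covering_of_maps (K := convexHull ℝ (range v)) ψ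
    (fun i => (fun y => y + (φ i g0 - ψ i c)) ⁻¹' R i)
    (fun i y => by
      obtain ⟨k, hk⟩ := h1 i y
      obtain ⟨x, hx, -⟩ := gl_surj (k + g0)
      refine ⟨L x, ?_⟩
      change φ i (gl (L.symm (L x))) = _
      rw [L.symm_apply_apply, add_right_cancel hx, hk])
    (fun i => (measurable_add_const _) (h2 i))
    (fun i => by rw [measure_preimage_add_right]; exact h3 i)
    (by
      rw [hK]
      rintro _ ⟨x, hx, rfl⟩
      obtain ⟨i, hi⟩ := mem_iUnion.1 (h5 (K0_eq ▸ ⟨x, hx, rfl⟩ : gl x + g0 ∈ K0))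
      refine mem_iUnion.2 ⟨i, ?_⟩
      change ψ i (L x + c) + (φ i g0 - ψ i c) ∈ R i
      rw [hkey]
      exact hi)
  refine ⟨C.m, C.axis, C.base, covers_of
    (fun i => ⟨C.norm_axis i, C.base_measurable i, C.base_finite i⟩)
    (fun x hx => mem_iUnion.1 (C.covers hx)), ?_⟩
  change C.relArea ≤ _
  rw [hC]
  refine le_trans (Finset.sum_le_sum fun i _ => ?_) h6
  have h7 : ψ i '' convexHull ℝ (range v) = (fun y => y + (φ i g0 - ψ i c)) ⁻¹' (φ i '' K0) := by
    rw [hK, K0_eq]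
    ext y
    constructor
    · rintro ⟨_, ⟨x, hx, rfl⟩, rfl⟩
      exact ⟨_, ⟨x, hx, rfl⟩, (hkey i x).symm⟩
    · rintro ⟨_, ⟨x, hx, rfl⟩, hy⟩
      exact ⟨_, ⟨x, hx, rfl⟩, add_right_cancel ((hkey i x).trans hy)⟩
  rw [h7, measure_preimage_add_right, measure_preimage_add_right]
  have h8 := h4 i
  have h9 : 0 ≤ (volume (R i)).toReal := ENNReal.toReal_nonneg
  rw [div_le_iff₀ (by linarith only [h8])]
  nlinarith only [h8, h9]

end Vale.Agent.N243
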