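import Vale.Agent.P243E24.Main
import Vale.Agent.N243.Defs

/-! The standard tetrahedron `S`, its barycentric coordinates, and the volumes of two subsets. -/

set_option linter.all false

open MeasureTheory Set Metric
open scoped ENNReal

namespace Vale.Agent.N243

/-- Euclidean three-space. -/
abbrev E3 : Type := EuclideanSpace ℝ (Fin 3)

/-- The linear parts of the barycentric coordinates, times eight. -/
def lf (y : Fin 3 → ℝ) : Fin 4 → ℝ :=
  ![y 0 + y 1 + y 2, y 0 - y 1 - y 2, -y 0 + y 1 - y 2, -y 0 - y 1 + y 2]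

@[simp] theorem lf0 (y : Fin 3 → ℝ) : lf y 0 = y 0 + y 1 + y 2 := rfl
@[simp] theorem lf1 (y : Fin 3 → ℝ) : lf y 1 = y 0 - y 1 - y 2 := rfl
@[simp] theorem lf2 (y : Fin 3 → ℝ) : lf y 2 = -y 0 + y 1 - y 2 := rfl
@[simp] theorem lf3 (y : Fin 3 → ℝ) : lf y 3 = -y 0 - y 1 + y 2 := rfl

/-- The standard tetrahedron in coordinates. -/
def S0 : Set (Fin 3 → ℝ) := {y | ∀ i, -2 ≤ lf y i}

/-- The middle octahedron. -/
def O0 : Set (Fin 3 → ℝ) := {y | ∀ i, -2 ≤ lf y i ∧ lf y i ≤ 2}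

/-- The tetrahedron with its edges and vertices cut off. -/
def X0 : Set (Fin 3 → ℝ) := {y | (∀ i, -2 ≤ lf y i ∧ lf y i ≤ 34 / 7) ∧ ∀ j, |y j| ≤ 12 / 7}

theorem forall4 {P : Fin 4 → Prop} : (∀ i, P i) ↔ P 0 ∧ P 1 ∧ P 2 ∧ P 3 := by
  constructor
  · intro h
    exact ⟨h 0, h 1, h 2, h 3⟩
  · rintro ⟨h0, h1, h2, h3⟩ i
    fin_cases i
    exacts [h0, h1, h2, h3]

theorem forall3 {P : Fin 3 → Prop} : (∀ i, P i) ↔ P 0 ∧ P 1 ∧ P 2 := by
  constructor
  · intro h
    exact ⟨h 0, h 1, h 2⟩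
  · rintro ⟨h0, h1, h2⟩ i
    fin_cases i
    exacts [h0, h1, h2]

theorem continuous_lf (i : Fin 4) : Continuous fun y => lf y i := by
  fin_cases i <;> simp <;> fun_prop

theorem closed_S0 : IsClosed S0 := by
  have : S0 = ⋂ i, {y | -2 ≤ lf y i} := by
    ext y
    simp [S0]
  rw [this]
  exact isClosed_iInter fun i => isClosed_le continuous_const (continuous_lf i)

theorem closed_O0 : IsClosed O0 := by
  have : O0 = ⋂ i, ({y | -2 ≤ lf y i} ∩ {y | lf y i ≤ 2}) := by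
    ext y
    simp [O0]
  rw [this]
  exact isClosed_iInter fun i => (isClosed_le continuous_const (continuous_lf i)).inter
    (isClosed_le (continuous_lf i) continuous_const)

theorem closed_X0 : IsClosed X0 := by
  have : X0 = (⋂ i, ({y | -2 ≤ lf y i} ∩ {y | lf y i ≤ 34 / 7})) ∩
      ⋂ j : Fin 3, {y : Fin 3 → ℝ | |y j| ≤ 12 / 7} := by
    ext y
    simp [X0]
  rw [this]
  refine (isClosed_iInter fun i => (isClosed_le continuous_const (continuous_lf i)).inter
    (isClosed_le (continuous_lf i) continuous_const)).inter (isClosed_iInter fun j => ?_)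
  exact isClosed_le (by fun_prop) continuous_const

/-- Volume of an affine image. -/
theorem vol_aff (M : Matrix (Fin 3) (Fin 3) ℝ) (c : Fin 3 → ℝ) (A : Set (Fin 3 → ℝ)) :
    volume ((fun y => M.mulVec y + c) '' A) = ENNReal.ofReal |M.det| * volume A := by
  have h1 : (fun y => M.mulVec y + c) '' A = (fun z => z + c) '' (Matrix.toLin' M '' A) := by
    rw [Set.image_image]
    rfl
  rw [h1, Set.image_add_right, measure_preimage_add_right, Measure.addHaar_image_linearMap,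
    LinearMap.det_toLin']

/-- The region with rectangular slices. -/
def R0 : Set (Fin 3 → ℝ) := {y | |y 1| ≤ 2 + y 0 ∧ |y 2| ≤ 2 - y 0}

theorem vol_R0 : volume R0 ≤ ENNReal.ofReal (128 / 3) := by
  have hm : MeasurableSet R0 := by
    have a1 : IsClosed {y : Fin 3 → ℝ | |y 1| ≤ 2 + y 0} := isClosed_le (by fun_prop) (by fun_prop)
    have a2 : IsClosed {y : Fin 3 → ℝ | |y 2| ≤ 2 - y 0} := isClosed_le (by fun_prop) (by fun_prop)
    exact (a1.inter a2).measurableSet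
  have hp := volume_preserving_piFinSuccAbove (fun _ : Fin 3 => ℝ) 0
  set e := MeasurableEquiv.piFinSuccAbove (fun _ : Fin 3 => ℝ) 0 with he
  have h1 : volume R0 = volume (e.symm ⁻¹' R0) := (hp.symm.measure_preimage_equiv R0).symm
  rw [h1, Measure.volume_eq_prod, Measure.prod_apply (e.symm.measurable hm)]
  have h2 : ∀ z : ℝ, volume (Prod.mk z ⁻¹' (e.symm ⁻¹' R0)) ≤
      (Icc (-2 : ℝ) 2).indicator (fun z => ENNReal.ofReal (16 - 4 * z ^ 2)) z := by
    intro z
    have h3 : Prod.mk z ⁻¹' (e.symm ⁻¹' R0) =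
        Icc (![-(2 + z), -(2 - z)] : Fin 2 → ℝ) ![2 + z, 2 - z] := by
      ext w
      simp only [he, R0, mem_preimage, mem_setOf_eq, mem_Icc, Pi.le_def, Fin.forall_fin_two,
        MeasurableEquiv.piFinSuccAbove_symm_apply, abs_le]
      change (-(2 + z) ≤ w 0 ∧ w 0 ≤ 2 + z) ∧ -(2 - z) ≤ w 1 ∧ w 1 ≤ 2 - z ↔
        (-(2 + z) ≤ w 0 ∧ -(2 - z) ≤ w 1) ∧ w 0 ≤ 2 + z ∧ w 1 ≤ 2 - z
      tauto
    rw [h3, Real.volume_Icc_pi, Fin.prod_univ_two]
    change ENNReal.ofReal (2 + z - -(2 + z)) * ENNReal.ofReal (2 - z - -(2 - z)) ≤ _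
    by_cases hz : z ∈ Icc (-2 : ℝ) 2
    · rw [indicator_of_mem hz, ← ENNReal.ofReal_mul (by linarith [hz.1])]
      exact le_of_eq (by congr 1; ring)
    · rw [indicator_of_notMem hz]
      rcases not_and_or.1 hz with h | h
      · rw [ENNReal.ofReal_of_nonpos (p := 2 + z - -(2 + z)) (by linarith [not_le.1 h]), zero_mul]
      · rw [ENNReal.ofReal_of_nonpos (p := 2 - z - -(2 - z)) (by linarith [not_le.1 h]), mul_zero]
  refine (lintegral_mono h2).trans ?_
  rw [lintegral_indicator measurableSet_Icc, ← ofReal_integral_eq_lintegral_ofReal]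
  · rw [integral_Icc_eq_integral_Ioc, ← intervalIntegral.integral_of_le (by norm_num)]
    refine ENNReal.ofReal_le_ofReal (le_of_eq ?_)
    rw [intervalIntegral.integral_sub (by simp) (Continuous.intervalIntegrable (by fun_prop) _ _),
      intervalIntegral.integral_const_mul, integral_pow]
    norm_num
  · exact Continuous.integrableOn_Icc (by fun_prop)
  · refine (ae_restrict_iff' measurableSet_Icc).2 (Filter.Eventually.of_forall fun z hz => ?_)
    have := hz.1
    have := hz.2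
    simp only [Pi.zero_apply]
    nlinarith

theorem vol_S0 : volume S0 ≤ ENNReal.ofReal (64 / 3) := by
  have h1 : S0 ⊆ (fun y => (!![0, 1 / 2, 1 / 2; 0, 1 / 2, -1 / 2; 1, 0, 0] :
      Matrix (Fin 3) (Fin 3) ℝ).mulVec y + 0) '' R0 := by
    intro x hx
    obtain ⟨h0, h1, h2, h3⟩ := forall4.1 hx
    simp only [lf0, lf1, lf2, lf3] at h0 h1 h2 h3
    refine ⟨![x 2, x 0 + x 1, x 0 - x 1], ⟨?_, ?_⟩, ?_⟩
    · change |x 0 + x 1| ≤ 2 + x 2
      rw [abs_le]
      constructor <;> linarith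
    · change |x 0 - x 1| ≤ 2 - x 2
      rw [abs_le]
      constructor <;> linarith
    · funext i
      fin_cases i <;> simp [Matrix.mulVec, dotProduct, Fin.sum_univ_three] <;> ring
  refine (measure_mono h1).trans ?_
  rw [vol_aff, Matrix.det_fin_three]
  refine (mul_le_mul_right vol_R0 _).trans ?_
  rw [← ENNReal.ofReal_mul (abs_nonneg _)]
  refine ENNReal.ofReal_le_ofReal (le_of_eq ?_)
  simp
  norm_num

theorem vol_S0_ne : volume S0 ≠ ∞ := ne_top_of_le_ne_top ENNReal.ofReal_ne_top vol_S0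

/-- A corner of a cube. -/
def Cn (s : Fin 3 → ℝ) (r a : ℝ) : Set (Fin 3 → ℝ) :=
  {y | (∀ j, s j * y j ≤ r) ∧ 3 * r - a ≤ s 0 * y 0 + s 1 * y 1 + s 2 * y 2}

theorem vol_Cn {s : Fin 3 → ℝ} (hs : ∀ j, s j * s j = 1) (r : ℝ) {a : ℝ} (ha : 0 < a) :
    volume (Cn s r a) ≤ ENNReal.ofReal (a ^ 3 / 6) := by
  obtain ⟨s0, s1, s2⟩ := forall3.1 hs
  set b := a / 8 with hb
  have h1 : Cn s r a ⊆ (fun y => (!![-(s 0 * b), s 0 * b, s 0 * b; s 1 * b, -(s 1 * b), s 1 * b;
      s 2 * b, s 2 * b, -(s 2 * b)] : Matrix (Fin 3) (Fin 3) ℝ).mulVec y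
      + ![s 0 * (r - a / 4), s 1 * (r - a / 4), s 2 * (r - a / 4)]) '' S0 := by
    rintro x ⟨hx, hx'⟩
    obtain ⟨h0, h1, h2⟩ := forall3.1 hx
    set p := (r - s 0 * x 0) / a with hp
    set q := (r - s 1 * x 1) / a with hq
    set t := (r - s 2 * x 2) / a with ht
    have p0 : 0 ≤ p := div_nonneg (by linarith) ha.le
    have q0 : 0 ≤ q := div_nonneg (by linarith) ha.le
    have t0 : 0 ≤ t := div_nonneg (by linarith) ha.le
    have hsum : p + q + t ≤ 1 := by
      rw [hp, hq, ht, ← add_div, ← add_div, div_le_one ha]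
      linarith
    have ep : a * p = r - s 0 * x 0 := by rw [hp]; field_simp
    have eq : a * q = r - s 1 * x 1 := by rw [hq]; field_simp
    have et : a * t = r - s 2 * x 2 := by rw [ht]; field_simp
    refine ⟨![2 - 4 * q - 4 * t, 2 - 4 * p - 4 * t, 2 - 4 * p - 4 * q], ?_, ?_⟩
    · refine forall4.2 ⟨?_, ?_, ?_, ?_⟩ <;> simp <;> linarith
    · funext i
      fin_cases i <;> simp [Matrix.mulVec, dotProduct, Fin.sum_univ_three, hb]
      · linear_combination (-(s 0)) * ep + x 0 * s0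
      · linear_combination (-(s 1)) * eq + x 1 * s1
      · linear_combination (-(s 2)) * et + x 2 * s2
  refine (measure_mono h1).trans ?_
  rw [vol_aff, Matrix.det_fin_three]
  refine (mul_le_mul_right vol_S0 _).trans ?_
  rw [← ENNReal.ofReal_mul (abs_nonneg _)]
  refine ENNReal.ofReal_le_ofReal (le_of_eq ?_)
  have h2 : |s 0 * s 1 * s 2| = 1 := by
    rw [← sq_eq_sq₀ (abs_nonneg _) zero_le_one, sq_abs]
    linear_combination (s 1 * s 1 * (s 2 * s 2)) * s0 + (s 2 * s 2) * s1 + s2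
  have h3 : 0 ≤ 4 * b ^ 3 := by positivity
  simp only [Matrix.of_apply, Matrix.cons_val', Matrix.cons_val_zero, Matrix.cons_val_one,
    Matrix.cons_val_fin_one, Matrix.cons_val]
  rw [show -(s 0 * b) * -(s 1 * b) * -(s 2 * b) - -(s 0 * b) * (s 1 * b) * (s 2 * b)
      - s 0 * b * (s 1 * b) * -(s 2 * b) + s 0 * b * (s 1 * b) * (s 2 * b)
      + s 0 * b * (s 1 * b) * (s 2 * b) - s 0 * b * -(s 1 * b) * (s 2 * b)
      = (s 0 * s 1 * s 2) * (4 * b ^ 3) by ring, abs_mul, h2, abs_of_nonneg h3, hb]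
  ring

/-- The signs of the vertices. -/
def sg : Fin 4 → Fin 3 → ℝ := ![![1, 1, 1], ![1, -1, -1], ![-1, 1, -1], ![-1, -1, 1]]

theorem sg_sq (i : Fin 4) (j : Fin 3) : sg i j * sg i j = 1 := by
  fin_cases i <;> fin_cases j <;> simp [sg]

theorem lf_eq (y : Fin 3 → ℝ) (i : Fin 4) :
    lf y i = sg i 0 * y 0 + sg i 1 * y 1 + sg i 2 * y 2 := by
  fin_cases i <;> simp [sg] <;> ring

theorem sg_mul_le (i : Fin 4) (j : Fin 3) {z r : ℝ} (h : |z| ≤ r) :
    sg i j * z ≤ r ∧ -sg i j * z ≤ r := by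
  obtain ⟨h1, h2⟩ := abs_le.1 h
  fin_cases i <;> fin_cases j <;> simp [sg] <;> constructor <;> linarith

theorem vol_X0 : (6720 / 343 : ℝ) ≤ (volume X0).toReal := by
  have hX : volume X0 ≠ ∞ :=
    ne_top_of_le_ne_top vol_S0_ne (measure_mono fun y hy i => (hy.1 i).1)
  have h1 : Icc (fun _ => -(12 / 7) : Fin 3 → ℝ) (fun _ => 12 / 7) ⊆
      X0 ∪ ((⋃ i, Cn (-sg i) (12 / 7) (22 / 7)) ∪ ⋃ i, Cn (sg i) (12 / 7) (2 / 7)) := by
    intro y hy
    have hy' : ∀ j, |y j| ≤ 12 / 7 := fun j => abs_le.2 ⟨hy.1 j, hy.2 j⟩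
    by_cases hx : ∀ i, -2 ≤ lf y i ∧ lf y i ≤ 34 / 7
    · exact Or.inl ⟨hx, hy'⟩
    · obtain ⟨i, hi⟩ := not_forall.1 hx
      rcases not_and_or.1 hi with h | h
      · refine Or.inr (Or.inl (mem_iUnion.2 ⟨i, fun j => (sg_mul_le i j (hy' j)).2, ?_⟩))
        have := lf_eq y i
        simp only [Pi.neg_apply]
        linarith [not_le.1 h]
      · refine Or.inr (Or.inr (mem_iUnion.2 ⟨i, fun j => (sg_mul_le i j (hy' j)).1, ?_⟩))
        have := lf_eq y i
        linarith [not_le.1 h]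
  have h2 : volume (⋃ i, Cn (-sg i) (12 / 7) (22 / 7)) ≤
      ENNReal.ofReal (4 * ((22 / 7) ^ 3 / 6)) := by
    refine (measure_iUnion_fintype_le _ _).trans ?_
    refine (Finset.sum_le_sum fun i _ => vol_Cn (s := -sg i)
      (fun j => by simp only [Pi.neg_apply, neg_mul_neg, sg_sq]) _ (by norm_num)).trans ?_
    rw [Finset.sum_const, Finset.card_univ, Fintype.card_fin, nsmul_eq_mul,
      ENNReal.ofReal_mul (by norm_num)]
    simp
  have h3 : volume (⋃ i, Cn (sg i) (12 / 7) (2 / 7)) ≤ ENNReal.ofReal (4 * ((2 / 7) ^ 3 / 6)) := by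
    refine (measure_iUnion_fintype_le _ _).trans ?_
    refine (Finset.sum_le_sum fun i _ => vol_Cn (s := sg i) (sg_sq i) _ (by norm_num)).trans ?_
    rw [Finset.sum_const, Finset.card_univ, Fintype.card_fin, nsmul_eq_mul,
      ENNReal.ofReal_mul (by norm_num)]
    simp
  have h4 := ((measure_mono h1).trans (measure_union_le _ _)).trans
    (add_le_add le_rfl ((measure_union_le _ _).trans (add_le_add h2 h3)))
  rw [Real.volume_Icc_pi, Fin.prod_univ_three, ← ENNReal.ofReal_mul (by norm_num),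
    ← ENNReal.ofReal_mul (by norm_num), ← ENNReal.ofReal_add (by norm_num) (by norm_num),
    ← ENNReal.ofReal_toReal hX, ← ENNReal.ofReal_add ENNReal.toReal_nonneg (by norm_num),
    ENNReal.ofReal_le_ofReal_iff (by positivity)] at h4
  norm_num at h4 ⊢
  linarith

theorem vol_O0 : (volume S0).toReal / 2 ≤ (volume O0).toReal := by
  have hO : volume O0 ≠ ∞ :=
    ne_top_of_le_ne_top vol_S0_ne (measure_mono fun y hy i => (hy i).1)
  have h1 : S0 ⊆ O0 ∪ ⋃ i, (fun y => (!![1 / 2, 0, 0; 0, 1 / 2, 0; 0, 0, 1 / 2] :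
      Matrix (Fin 3) (Fin 3) ℝ).mulVec y + sg i) '' S0 := by
    intro y hy
    by_cases hx : ∀ i, lf y i ≤ 2
    · exact Or.inl fun i => ⟨hy i, hx i⟩
    · obtain ⟨i, hi⟩ := not_forall.1 hx
      refine Or.inr (mem_iUnion.2 ⟨i, fun j => 2 * (y j - sg i j), ?_, ?_⟩)
      · obtain ⟨h0, h1, h2, h3⟩ := forall4.1 hy
        have hi' := not_le.1 hi
        simp only [lf0, lf1, lf2, lf3] at h0 h1 h2 h3
        fin_cases i <;> refine forall4.2 ⟨?_, ?_, ?_, ?_⟩ <;> simp [sg] at hi' ⊢ <;> linarith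
      · funext j
        fin_cases j <;> simp [Matrix.mulVec, dotProduct, Fin.sum_univ_three]
  have h2 : volume (⋃ i : Fin 4, (fun y => (!![1 / 2, 0, 0; 0, 1 / 2, 0; 0, 0, 1 / 2] :
      Matrix (Fin 3) (Fin 3) ℝ).mulVec y + sg i) '' S0) ≤
      ENNReal.ofReal ((volume S0).toReal / 2) := by
    refine (measure_iUnion_fintype_le _ _).trans (le_of_eq ?_)
    simp only [vol_aff]
    rw [Finset.sum_const, Finset.card_univ, Fintype.card_fin, nsmul_eq_mul, Matrix.det_fin_three,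
      ← ENNReal.ofReal_toReal vol_S0_ne, ← ENNReal.ofReal_mul (abs_nonneg _),
      ENNReal.toReal_ofReal ENNReal.toReal_nonneg, ← ENNReal.ofReal_natCast,
      ← ENNReal.ofReal_mul (by norm_num)]
    congr 1
    simp
    norm_num
    ring
  have h4 := ((measure_mono h1).trans (measure_union_le _ _)).trans (add_le_add le_rfl h2)
  have h5 := ENNReal.toReal_mono (ENNReal.add_ne_top.2 ⟨hO, ENNReal.ofReal_ne_top⟩) h4
  rw [ENNReal.toReal_add hO ENNReal.ofReal_ne_top, ENNReal.toReal_ofReal (by positivity)] at h5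
  linarith

end Vale.Agent.N243
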